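import Vale.Agent.P344.R2.H715.Wht
import Vale.Agent.P344.R2.H715.Fun2
import Vale.Agent.P338Z.Net.Defs

/-!
The frames of the complex network as matrices: diagonal matrices of powers of `i`, conjugated by
the Walsh-Hadamard matrix.
-/

namespace Vale.Agent.P344X18

open Matrix Vale.Agent.P344.R2.H715 Vale.Agent.P338Z

/-- Powers of `i`. -/
noncomputable def i4 (z : ZMod 4) : ℂ := Complex.I ^ z.val

theorem i4_zero : i4 0 = 1 := by simp [i4]

theorem i4_one : i4 1 = Complex.I := by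
  rw [i4, show (1 : ZMod 4).val = 1 from rfl, pow_one]

theorem i4_add (a b : ZMod 4) : i4 (a + b) = i4 a * i4 b := by
  rw [i4, i4, i4, ← pow_add, ZMod.val_add, ← pow_eq_pow_mod _ Complex.I_pow_four]

theorem i4_two : i4 (1 + 1) = -1 := by rw [i4_add, i4_one, Complex.I_mul_I]

theorem i4_neg : i4 (-1) = -Complex.I := by
  rw [show (-1 : ZMod 4) = 1 + 1 + 1 by decide, i4_add, i4_two, i4_one, neg_one_mul]

theorem i4_sum {ι : Type} (s : Finset ι) (f : ι → ZMod 4) :
    i4 (∑ i ∈ s, f i) = ∏ i ∈ s, i4 (f i) := by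
  classical
  induction s using Finset.induction_on with
  | empty => simp [i4_zero]
  | insert i s hi ih => rw [Finset.sum_insert hi, Finset.prod_insert hi, i4_add, ih]

/-- Binary words. -/
abbrev V (m : ℕ) : Type := Fin m → ZMod 2

variable {m : ℕ}

/-- The Walsh-Hadamard matrix. -/
def Hm (m : ℕ) : Matrix (V m) (V m) ℂ := fun x y => chi (x ⬝ᵥ y)

theorem sum_two (f : ZMod 2 → ℂ) : ∑ z, f z = f 0 + f 1 := Fin.sum_univ_two f

theorem chi_one : chi 1 = -1 := if_neg (by decide)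

theorem char_sum (f : ZMod 2 → ℂ) (x y : V m) :
    ∑ ξ : V m, chi (x ⬝ᵥ ξ) * (∏ a, f (ξ a)) * chi (ξ ⬝ᵥ y) =
      ∏ a, (f 0 + f 1 * chi (x a + y a)) := by
  have h : ∀ a, f 0 + f 1 * chi (x a + y a) = ∑ z, chi (x a * z) * f z * chi (z * y a) := by
    intro a
    rw [sum_two, chi_add]
    simp only [mul_zero, zero_mul, chi_zero, mul_one, one_mul]
    ring
  simp only [h]
  rw [Finset.prod_univ_sum, Fintype.piFinset_univ]
  refine Finset.sum_congr rfl fun ξ _ => ?_
  rw [dotProduct, dotProduct, chi_sum, chi_sum, Finset.prod_mul_distrib, Finset.prod_mul_distrib]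

theorem chi_eq (a b : ZMod 2) : chi (a + b) = if a = b then 1 else -1 := by
  have h : ∀ a b : ZMod 2, a + b = 0 ↔ a = b := by decide
  simp only [chi, h]

theorem orth (x y : V m) :
    ∑ ξ : V m, chi (x ⬝ᵥ ξ) * chi (ξ ⬝ᵥ y) = if x = y then 2 ^ m else 0 := by
  have h := char_sum (fun _ => 1) x y
  simp only [Finset.prod_const_one, mul_one, one_mul, chi_eq] at h
  rw [h]
  split_ifs with hxy
  · subst hxy
    simp [one_add_one_eq_two]
  · obtain ⟨a, ha⟩ := Function.ne_iff.1 hxy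
    exact Finset.prod_eq_zero (Finset.mem_univ a) (by simp [ha])

theorem Hm_mul : Hm m * Hm m = (2 ^ m : ℂ) • (1 : Matrix (V m) (V m) ℂ) := by
  ext x y
  rw [Matrix.mul_apply, Matrix.smul_apply, Matrix.one_apply]
  simp only [Hm, orth, smul_eq_mul, mul_ite, mul_one, mul_zero]

/-- The matrix of a frame. -/
noncomputable def P (g : V m → ZMod 4) : Matrix (V m) (V m) ℂ :=
  (2 ^ m : ℂ)⁻¹ • (Hm m * diagonal (fun ξ => i4 (g ξ)) * Hm m)

theorem P_apply (g : V m → ZMod 4) (x y : V m) :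
    P g x y = (2 ^ m : ℂ)⁻¹ * ∑ ξ, chi (x ⬝ᵥ ξ) * i4 (g ξ) * chi (ξ ⬝ᵥ y) := by
  rw [P, Matrix.smul_apply, Matrix.mul_apply]
  simp only [Matrix.mul_diagonal, Hm, smul_eq_mul]

theorem P_zero : P (0 : V m → ZMod 4) = 1 := by
  have h : (2 ^ m : ℂ) ≠ 0 := pow_ne_zero _ two_ne_zero
  simp only [P, Pi.zero_apply, i4_zero, diagonal_one, Matrix.mul_one, Hm_mul, smul_smul,
    inv_mul_cancel₀ h, one_smul]

theorem P_add (g g' : V m → ZMod 4) : P (g + g') = P g * P g' := by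
  have h : (2 ^ m : ℂ) ≠ 0 := pow_ne_zero _ two_ne_zero
  have h1 : (Hm m * diagonal (fun ξ => i4 (g ξ)) * Hm m) *
      (Hm m * diagonal (fun ξ => i4 (g' ξ)) * Hm m) =
      (2 ^ m : ℂ) • (Hm m * diagonal (fun ξ => i4 ((g + g') ξ)) * Hm m) := by
    calc _ = Hm m * diagonal (fun ξ => i4 (g ξ)) * (Hm m * Hm m) *
          diagonal (fun ξ => i4 (g' ξ)) * Hm m := by simp only [Matrix.mul_assoc]
      _ = _ := by
        rw [Hm_mul, Matrix.mul_smul, Matrix.mul_one, Matrix.smul_mul, Matrix.smul_mul,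
          Matrix.mul_assoc (Hm m), diagonal_mul_diagonal]
        simp only [Pi.add_apply, i4_add]
  rw [P, P, P, Matrix.smul_mul, Matrix.mul_smul, h1, smul_smul, smul_smul,
    mul_assoc (2 ^ m : ℂ)⁻¹, inv_mul_cancel₀ h, mul_one]

/-- The symmetric matrices of order two with equal diagonal entries. -/
def Cs (α β : ℂ) : Matrix (ZMod 2) (ZMod 2) ℂ := fun a b => if a = b then α else β

/-- The gate. -/
noncomputable def Cg : Matrix (ZMod 2) (ZMod 2) ℂ := Cs ((1 + Complex.I) / 2) ((1 - Complex.I) / 2)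

theorem P_full : P (qfull m) = tpow Cg m := by
  ext x y
  have h1 : ∀ ξ : V m, i4 (qfull m ξ) = ∏ a, i4 (if ξ a = 0 then 0 else 1) := fun ξ => by
    rw [qfull, i4_sum]
  rw [P_apply]
  simp only [h1]
  rw [char_sum (fun z => i4 (if z = 0 then 0 else 1)) x y, tpow_apply,
    show (2 ^ m : ℂ)⁻¹ = ∏ _a : Fin m, (2 : ℂ)⁻¹ by simp, ← Finset.prod_mul_distrib]
  refine Finset.prod_congr rfl fun a _ => ?_
  rw [if_pos rfl, if_neg (by decide), i4_zero, i4_one, chi_eq, Cg, Cs]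
  split_ifs <;> ring

/-- The word of a list. -/
def uv (m : ℕ) (u : List Bool) : V m := fun a => if u.getD a false then 1 else 0

theorem dotL_eq (u : List Bool) (ξ : V m) : dotL m u ξ = uv m u ⬝ᵥ ξ := by
  simp only [dotL, uv, dotProduct, ite_mul, one_mul, zero_mul]

/-- A combination of the identity and a translation. -/
def Tu (α β : ℂ) (u : V m) : Matrix (V m) (V m) ℂ :=
  fun x y => (if x = y then α else 0) + if x + u = y then β else 0

theorem P_rank (s : ZMod 4) (u : V m) :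
    P (fun ξ => if u ⬝ᵥ ξ = 0 then 0 else s) = Tu ((1 + i4 s) / 2) ((1 - i4 s) / 2) u := by
  ext x y
  have h : (2 ^ m : ℂ) ≠ 0 := pow_ne_zero _ two_ne_zero
  have h1 : ∀ ξ : V m, chi (x ⬝ᵥ ξ) * i4 (if u ⬝ᵥ ξ = 0 then 0 else s) * chi (ξ ⬝ᵥ y) =
      (1 + i4 s) / 2 * (chi (x ⬝ᵥ ξ) * chi (ξ ⬝ᵥ y)) +
        (1 - i4 s) / 2 * (chi ((x + u) ⬝ᵥ ξ) * chi (ξ ⬝ᵥ y)) := fun ξ => by
    rw [add_dotProduct, chi_add]
    by_cases h0 : u ⬝ᵥ ξ = 0
    · rw [if_pos h0, h0, i4_zero, chi_zero]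
      ring
    · rw [if_neg h0, show chi (u ⬝ᵥ ξ) = -1 from if_neg h0]
      ring
  rw [P_apply]
  simp only [h1]
  rw [Finset.sum_add_distrib, ← Finset.mul_sum, ← Finset.mul_sum, orth, orth, Tu]
  split_ifs <;> field_simp <;> ring

/-- Splitting off the direction of a word. -/
def spl (u : V m) (p : Fin m) : V m ≃ ZMod 2 × ({a // a ≠ p} → ZMod 2) where
  toFun x := (x p, fun a => x a + x p * u a)
  invFun z := fun a => if h : a = p then z.1 else z.2 ⟨a, h⟩ + z.1 * u a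
  left_inv x := by
    funext a
    have h0 : ∀ b c : ZMod 2, b + c + c = b := by decide
    by_cases h : a = p
    · simp [h]
    · simp [h, h0]
  right_inv z := by
    have h0 : ∀ b c : ZMod 2, b + c + c = b := by decide
    refine Prod.ext (by simp) (funext fun a => ?_)
    simp [a.2, h0]

theorem eqv_Tu (α β : ℂ) {u : V m} {p : Fin m} (hu : u p = 1) :
    Eqv (Tu α β u) (tensor (Cs α β) (1 : Matrix ({a // a ≠ p} → ZMod 2) _ ℂ)) := by
  refine ⟨spl u p, ?_⟩
  ext x y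
  have h1 : spl u p (x + u) = ((spl u p x).1 + 1, (spl u p x).2) := by
    refine Prod.ext (by simp [spl, hu]) (funext fun a => ?_)
    have h0 : ∀ b c d : ZMod 2, b + d + (c + 1) * d = b + c * d := by decide
    simp [spl, hu, h0]
  rw [Matrix.submatrix_apply, tensor_apply, Tu, Cs, Matrix.one_apply]
  simp only [← (spl u p).injective.eq_iff, h1]
  generalize spl u p x = x', spl u p y = y'
  obtain ⟨a, b⟩ := x'
  obtain ⟨a', b'⟩ := y'
  have h2 : ∀ a a' : ZMod 2, a + 1 = a' ↔ ¬a = a' := by decide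
  simp only [Prod.mk.injEq, h2]
  by_cases h3 : a = a' <;> by_cases h4 : b = b' <;> simp [h3, h4]

end Vale.Agent.P344X18
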