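import Vale.Agent.P338Z.Net.Gen
import Vale.Agent.P338Z.Net.CNet

/-!
The complex network on `2 ^ 58` wires, with the exact number of calls.
-/

namespace Vale.Agent.P344X18

open Vale.Agent.P338Z Vale.Agent.P338Z.Net Vale.Agent.P338Z.Des Vale.Agent.P338Z.Net.Cn

theorem cnet : ∃ prog : List CI, CNet 58 (48 ^ 3) prog ∧
    prog.countP (fun c => decide (c.1 = 1)) + 952498745344 ≤ 2 ^ 58 * 48 ^ 3 := by
  obtain ⟨ε⟩ : Nonempty (Fin (48 ^ 3) ≃ Fin 48 × Fin 48 × Fin 48) :=
    ⟨Fintype.equivOfCardEq (by simp only [Fintype.card_fin, Fintype.card_prod]; norm_num)⟩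
  obtain ⟨D, hg, hgood, hok, hsc, he, hfr⟩ := exists_des ε 46 (Fintype.card_fin 48) (by simp)
  obtain ⟨prog, hwf, hc, -, hsem⟩ := gen _ _ _ _ D 58 17296 49 card_tr (by simp) hok
    (by norm_num)
  rw [hg] at hc
  rw [hgood] at hwf
  have h : prog.countP ((fun c : CI => decide (c.1 = 1)) ∘ cc ε) ≤ prog.countP fun q => !q.isG :=
    List.countP_mono_left fun q _ => by cases q <;> simp [cc, NI.isG]
  have hcnt : (prog.map (cc ε)).countP (fun c => decide (c.1 = 1)) + 952498745344 ≤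
      2 ^ 58 * 48 ^ 3 := by
    rw [List.countP_map]
    norm_num at hc ⊢
    omega
  refine ⟨prog.map (cc ε), ⟨fun c hc => ?_, fun c hc h0 => ?_, ?_,
    fun M _ _ Φ h0 hadd x w hw => ?_⟩, hcnt⟩
  · obtain ⟨q, hq, rfl⟩ := List.mem_map.1 hc
    have h := hwf q hq
    cases q with
    | gate i j s => exact ⟨h.1, fun _ => h.2⟩
    | call i n l => exact ⟨h.1, fun h' => absurd h' one_ne_zero⟩
    | dbl i l => exact ⟨h.1, fun h' => absurd h' two_ne_zero⟩
  · obtain ⟨q, hq, rfl⟩ := List.mem_map.1 hc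
    exact cc_lab ε (hwf q hq) h0
  · rw [← List.countP_eq_length_filter]
    omega
  · have h := hsem ℂ _ hsc _ _ hfr M Φ h0 hadd x w hw
    rw [he, full_eq] at h
    rw [List.foldl_map, ← h]
    exact congrFun (List.foldl_ext _ _ _ fun y q hq => crun_cc ε Φ y (hwf q hq)) w

end Vale.Agent.P344X18
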