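import Vale.Agent.P344X18.Run
import Vale.Agent.P344X18.Net
import Vale.Agent.P344.R2.H527.Main

/-!
The recursion, the numbers, and the bound for the discrete Fourier transform.
-/

namespace Vale.Agent.P344X18

open Matrix Filter Asymptotics Vale.Agent.P344 Vale.Agent.P344.R2.H715 Vale.Agent.P344.R2.H527

theorem rec_le {z : ℕ → ℝ} (hs : Subadditive z) (h0 : ∀ n, 0 ≤ z n) {r m : ℕ} (hm : 2 ≤ m)
    {l D α : ℝ} (hl : 0 ≤ l) (hD : 0 ≤ D) (hα : 0 ≤ α) (hlt : l < (m : ℝ) ^ α)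
    (h : ∀ K, z (r + m * K) ≤ l * z K + D) :
    ∃ C : ℝ, 0 ≤ C ∧ ∀ n : ℕ, 1 ≤ n → z n ≤ C * (n : ℝ) ^ α := by
  have hm0 : (0 : ℝ) < (m : ℝ) ^ α := lt_of_le_of_lt hl hlt
  set ρ := l / (m : ℝ) ^ α with hρ
  have hρ0 : 0 ≤ ρ := div_nonneg hl hm0.le
  have hρ1 : ρ < 1 := (div_lt_one hm0).2 hlt
  set B := ∑ j ∈ Finset.range (r + m), z j with hB
  have hB0 : 0 ≤ B := Finset.sum_nonneg fun j _ => h0 j
  have hzB : ∀ j < r + m, z j ≤ B := fun j hj =>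
    Finset.single_le_sum (fun j _ => h0 j) (Finset.mem_range.2 hj)
  set C := (D + B) / (1 - ρ) with hC
  have hC0 : 0 ≤ C := div_nonneg (by linarith) (by linarith)
  have hCD : C * (1 - ρ) = D + B := div_mul_cancel₀ _ (by linarith)
  refine ⟨C, hC0, fun n => ?_⟩
  induction n using Nat.strong_induction_on with
  | _ n ih =>
    intro hn
    have hn1 : (1 : ℝ) ≤ (n : ℝ) ^ α := Real.one_le_rpow (by exact_mod_cast hn) hα
    have hC1 : C ≤ C * (n : ℝ) ^ α := le_mul_of_one_le_right hC0 hn1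
    rcases lt_or_ge n (r + m) with hnm | hnm
    · have := hzB n hnm
      nlinarith
    · obtain ⟨k, rfl⟩ : ∃ k, n = r + k := ⟨n - r, by omega⟩
      have hK1 : 1 ≤ k / m := (Nat.one_le_div_iff (by omega)).2 (by omega)
      have hKn : k / m < k := Nat.div_lt_self (by omega) (by omega)
      have hdm : m * (k / m) + k % m = k := Nat.div_add_mod k m
      have hmod : k % m < m := Nat.mod_lt k (by omega)
      have h1 := hs (r + m * (k / m)) (k % m)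
      rw [Nat.add_assoc, hdm] at h1
      have h2 := h (k / m)
      have h3 := ih (k / m) (by omega) hK1
      have h4 := hzB (k % m) (by omega)
      have h5 : (m : ℝ) ^ α * ((k / m : ℕ) : ℝ) ^ α ≤ ((r + k : ℕ) : ℝ) ^ α := by
        rw [← Real.mul_rpow (Nat.cast_nonneg _) (Nat.cast_nonneg _)]
        exact Real.rpow_le_rpow (by positivity)
          (by exact_mod_cast (by omega : m * (k / m) ≤ r + k)) hα
      have h6 : l * z (k / m) ≤ ρ * (C * ((r + k : ℕ) : ℝ) ^ α) := by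
        calc l * z (k / m) ≤ l * (C * ((k / m : ℕ) : ℝ) ^ α) := mul_le_mul_of_nonneg_left h3 hl
          _ = ρ * (C * ((m : ℝ) ^ α * ((k / m : ℕ) : ℝ) ^ α)) := by
            rw [hρ]
            field_simp
          _ ≤ _ := by gcongr
      have h7 : D + B ≤ (1 - ρ) * (C * ((r + k : ℕ) : ℝ) ^ α) := by
        rw [← hCD, mul_comm C]
        exact mul_le_mul_of_nonneg_left hC1 (by linarith)
      linarith

theorem num {c : ℕ} (hc : c + 952498745344 ≤ 2 ^ 58 * 48 ^ 3) :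
    (c : ℝ) / 2 ^ 58 < ((48 ^ 3 : ℕ) : ℝ) ^ (1 - 5 / 2 / 10 ^ 12 : ℝ) := by
  have h1 : (c : ℝ) + 952498745344 ≤ 2 ^ 58 * 48 ^ 3 := by exact_mod_cast hc
  have h2 : Real.log ((48 ^ 3 : ℕ) : ℝ) ≤ 17 * Real.log 2 := by
    rw [show (17 : ℝ) * Real.log 2 = Real.log (2 ^ 17) by rw [Real.log_pow]; norm_num]
    exact Real.log_le_log (by norm_num) (by norm_num)
  have h3 := Real.log_two_lt_d9
  rw [Real.rpow_sub (by norm_num), Real.rpow_one, div_eq_mul_inv (((48 ^ 3 : ℕ) : ℝ)),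
    Real.rpow_def_of_pos (by norm_num), ← Real.exp_neg]
  have h4 := Real.add_one_le_exp (-(Real.log ((48 ^ 3 : ℕ) : ℝ) * (5 / 2 / 10 ^ 12)))
  generalize Real.exp (-(Real.log ((48 ^ 3 : ℕ) : ℝ) * (5 / 2 / 10 ^ 12))) = e at h4 ⊢
  generalize Real.log ((48 ^ 3 : ℕ) : ℝ) = t at h2 h4
  push_cast
  rw [div_lt_iff₀ (by positivity)]
  linarith

theorem rt_le_rpow : ∃ C : ℝ, 0 ≤ C ∧ ∀ n : ℕ, 1 ≤ n →
    rt Cg n ≤ C * (n : ℝ) ^ (1 - 5 / 2 / 10 ^ 12 : ℝ) := by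
  obtain ⟨prog, h, hc⟩ := cnet
  have h0 := rt_nonneg Cg 58
  exact rec_le (rt_subadditive Cg) (rt_nonneg Cg) (by norm_num) (by positivity) (by positivity)
    (by norm_num) (num hc) (rt_rec h)

theorem cost_H (n : ℕ) : Cost (tpow H n) (cmin (tpow Cg n) + 2 * 2 ^ n) := by
  have hd : ∀ d : ZMod 2 → ℂ, (∀ b, d b ≠ 0) → Cost (tpow (Matrix.diagonal d) n) (2 ^ n) := by
    intro d hd
    have h1 : IsMono (tpow (Matrix.diagonal d) n) := IsMono.tprod fun _ => IsMono.diag hd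
    simpa using Cost.isMono h1
  have hmul : ∀ A B : Matrix (ZMod 2) (ZMod 2) ℂ, tpow (A * B) n = tpow A n * tpow B n :=
    fun A B => tprod_mul (fun _ => A) fun _ => B
  have h1 : (1 - Complex.I : ℂ) ≠ 0 := fun h => by simpa using congrArg Complex.re h
  have h2 : Eqv H (diagonal (fun a : ZMod 2 => if a = 0 then 1 - Complex.I else 1 + Complex.I) *
      Cg * diagonal fun a : ZMod 2 => if a = 0 then 1 else Complex.I) := by
    refine ⟨b2, ?_⟩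
    ext a b
    rw [Matrix.submatrix_apply, Matrix.mul_diagonal, Matrix.diagonal_mul]
    cases a <;> cases b <;> simp [b2, Cg, Cs, Complex.ext_iff] <;> norm_num
  refine (h2.tpow n).cost ?_
  rw [hmul, hmul]
  refine (((hd _ fun b => ?_).mul (cmin_spec _)).mul (hd _ fun b => ?_)).mono (by omega)
  · split_ifs
    · exact h1
    · exact fun h => by simpa using congrArg Complex.re h
  · split_ifs
    · exact one_ne_zero
    · exact Complex.I_ne_zero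

theorem zr_le_rt (n : ℕ) : zr n ≤ 3 * rt Cg n + 10 := by
  refine zr_le (cost_zeta_of_hadamard (cost_H n)) (le_of_eq ?_)
  rw [rt, ZMod.card]
  push_cast
  field_simp
  ring

theorem zr_le_pow : ∃ C : ℝ, 0 ≤ C ∧ ∀ n : ℕ, 1 ≤ n →
    zr n ≤ C * (n : ℝ) ^ (1 - 5 / 2 / 10 ^ 12 : ℝ) := by
  obtain ⟨C, hC, h⟩ := rt_le_rpow
  refine ⟨3 * C + 10, by positivity, fun n hn => ?_⟩
  have h1 : (1 : ℝ) ≤ (n : ℝ) ^ (1 - 5 / 2 / 10 ^ 12 : ℝ) :=
    Real.one_le_rpow (by exact_mod_cast hn) (by norm_num)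
  have h2 := zr_le_rt n
  have h3 := h n hn
  linarith

theorem logb_cq {q : ℕ} (hq : 1 ≤ q) : Real.logb 2 (cq q) ≤ 19 * (q : ℝ) ^ (3 / 2 : ℝ) := by
  have hq1 : (1 : ℝ) ≤ q := by exact_mod_cast hq
  have h1 : (cq q : ℝ) ≤ (2 * q) ^ (2 * q) * 2 ^ 3 := by
    have h : cq q ≤ (2 * q) ^ (2 * q) * 2 ^ 3 :=
      Nat.mul_le_mul (Nat.factorial_le_pow (2 * q)) (by norm_num)
    exact_mod_cast h
  have h2 := Real.logb_le_logb_of_le (b := 2) (by norm_num) (by exact_mod_cast cq_pos q) h1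
  rw [Real.logb_mul (by positivity) (by positivity), Real.logb_pow, Real.logb_pow,
    Real.logb_self_eq_one (by norm_num)] at h2
  have h3 : Real.log (2 * q) ≤ (2 * q) ^ (1 / 2 : ℝ) / (1 / 2) :=
    Real.log_le_rpow_div (by positivity) (by norm_num)
  have h4 : (2 * q : ℝ) ^ (1 / 2 : ℝ) ≤ 2 * (q : ℝ) ^ (1 / 2 : ℝ) := by
    rw [Real.mul_rpow (by norm_num) (by positivity)]
    refine mul_le_mul_of_nonneg_right ?_ (by positivity)
    simpa using Real.rpow_le_rpow_of_exponent_le (x := 2) (y := 1 / 2) (z := 1) (by norm_num)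
      (by norm_num)
  have h5 : Real.logb 2 (2 * q) ≤ 8 * (q : ℝ) ^ (1 / 2 : ℝ) := by
    have h6 := Real.log_two_gt_d9
    have h7 : (0 : ℝ) ≤ (q : ℝ) ^ (1 / 2 : ℝ) := by positivity
    rw [Real.logb, div_le_iff₀ (by linarith)]
    nlinarith
  have h8 : (q : ℝ) ^ (3 / 2 : ℝ) = q * (q : ℝ) ^ (1 / 2 : ℝ) := by
    rw [show (3 / 2 : ℝ) = 1 + 1 / 2 by norm_num, Real.rpow_add (by linarith), Real.rpow_one]
  have h9 : (1 : ℝ) ≤ (q : ℝ) ^ (3 / 2 : ℝ) := Real.one_le_rpow hq1 (by norm_num)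
  push_cast at h2
  nlinarith

theorem L_bigO {α C ε : ℝ} (hα0 : 0 < α) (hα1 : α < 1) (hC : 0 ≤ C) (hε : ε = (1 - α) * 2 / 5)
    (hz : ∀ n : ℕ, 1 ≤ n → zr n ≤ C * (n : ℝ) ^ α) :
    (fun n : ℕ => (L n : ℝ)) =O[atTop] fun n : ℕ => (n : ℝ) * Real.logb 2 n ^ (1 - ε) := by
  have hε0 : 0 < ε := by rw [hε]; linarith
  have hε1 : ε < 1 := by rw [hε]; linarith
  refine IsBigO.of_bound (19 * (12800 * C + 13400)) ?_
  filter_upwards [eventually_ge_atTop (Rq 1)] with n hn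
  obtain ⟨q, hq, hqn, hL⟩ := L_le_aux hα0 hα1 hC hz hn
  have hℓ7 := logb_cq hq
  set ℓ : ℝ := Real.logb 2 (cq q) with hℓ
  have hℓ3 : 3 ≤ ℓ := logb_cq_ge q
  have hℓ0 : 0 < ℓ := by linarith
  have hq1 : (1 : ℝ) ≤ q := by exact_mod_cast hq
  have hq0 : (0 : ℝ) < q := by linarith
  have hlog0 : 0 ≤ Real.logb 2 (n : ℝ) := le_trans (by positivity) hqn
  have key : ℓ * (q : ℝ) ^ α ≤ 19 * Real.logb 2 (n : ℝ) ^ (1 - ε) := by
    have h1 : ℓ ^ ε ≤ 19 * (q : ℝ) ^ (3 / 2 * ε) := by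
      calc ℓ ^ ε ≤ (19 * (q : ℝ) ^ (3 / 2 : ℝ)) ^ ε := Real.rpow_le_rpow hℓ0.le hℓ7 hε0.le
        _ = 19 ^ ε * (q : ℝ) ^ (3 / 2 * ε) := by
          rw [Real.mul_rpow (by norm_num) (by positivity), Real.rpow_mul hq0.le]
        _ ≤ 19 * (q : ℝ) ^ (3 / 2 * ε) := by
          refine mul_le_mul_of_nonneg_right ?_ (by positivity)
          calc (19 : ℝ) ^ ε ≤ 19 ^ (1 : ℝ) :=
                Real.rpow_le_rpow_of_exponent_le (by norm_num) hε1.le
            _ = 19 := Real.rpow_one 19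
    have h2 : ℓ = ℓ ^ (1 - ε) * ℓ ^ ε := by
      rw [← Real.rpow_add hℓ0, sub_add_cancel, Real.rpow_one]
    have h3 : (q : ℝ) ^ (3 / 2 * ε) * (q : ℝ) ^ α = (q : ℝ) ^ (1 - ε) := by
      rw [← Real.rpow_add hq0]
      congr 1
      rw [hε]
      ring
    calc ℓ * (q : ℝ) ^ α = ℓ ^ (1 - ε) * (ℓ ^ ε * (q : ℝ) ^ α) := by
          conv_lhs => rw [h2]
          ring
      _ ≤ ℓ ^ (1 - ε) * ((19 * (q : ℝ) ^ (3 / 2 * ε)) * (q : ℝ) ^ α) := by gcongr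
      _ = 19 * (q * ℓ) ^ (1 - ε) := by
          rw [Real.mul_rpow hq0.le hℓ0.le, ← h3]
          ring
      _ ≤ 19 * Real.logb 2 (n : ℝ) ^ (1 - ε) := by
          refine mul_le_mul_of_nonneg_left ?_ (by norm_num)
          exact Real.rpow_le_rpow (by positivity) hqn (by linarith)
  have hn0 : (0 : ℝ) ≤ n := Nat.cast_nonneg _
  rw [Real.norm_of_nonneg (Nat.cast_nonneg _), Real.norm_of_nonneg (by positivity)]
  calc (L n : ℝ) ≤ (12800 * C + 13400) * (n * (ℓ * (q : ℝ) ^ α)) := hL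
    _ ≤ (12800 * C + 13400) * (n * (19 * Real.logb 2 (n : ℝ) ^ (1 - ε))) := by gcongr
    _ = 19 * (12800 * C + 13400) * (n * Real.logb 2 (n : ℝ) ^ (1 - ε)) := by ring

/-- The explicit power saving. -/
theorem saving : ∃ C : ℝ, ∀ n : ℕ, 2 ≤ n → Computes Set.univ ⊤ (dft n) (L n) ∧
    (L n : ℝ) ≤ C * (n * Real.logb 2 n ^ (1 - 1 / 10 ^ 12 : ℝ)) := by
  obtain ⟨C, hC, h⟩ := zr_le_pow
  obtain ⟨C', hC'⟩ := explicit_of_isBigO
    (L_bigO (ε := 1 / 10 ^ 12) (by norm_num) (by norm_num) hC (by norm_num) h)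
  exact ⟨C', fun n hn => ⟨L_spec n, hC' n hn⟩⟩

end Vale.Agent.P344X18
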