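import Vale.Agent.P344X18.Fr

/-!
The number of gates for a run of the complex network.
-/

namespace Vale.Agent.P344X18

open Matrix Vale.Agent.P344 Vale.Agent.P344.R2.H715 Vale.Agent.P338Z

section gen

variable {ι κ μ : Type} [Fintype ι] [Fintype κ] [Fintype μ]

omit [Fintype κ] [Fintype μ] in
theorem cost_rows {A : Matrix κ ι ℂ} {B : Matrix μ ι ℂ} {s t : ℕ} (hA : Cost A s)
    (hB : Cost B t) : Cost (fromRows A B) (s + t) := by
  obtain ⟨d1, hA⟩ := hA
  obtain ⟨d2, hB⟩ := hB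
  refine ⟨max d1 d2, (Can.union hA hB).mono_right ?_⟩
  rintro ⟨p1, p2⟩ ⟨hp1, k, hp2⟩
  simp only at hp1 hp2
  subst hp1 hp2
  rcases k with k | k
  · exact ⟨d1, le_max_left _ _, Or.inl ⟨rfl, k, rfl⟩⟩
  · exact ⟨d2, le_max_right _ _, Or.inr ⟨rfl, k, rfl⟩⟩

/-- Some rows are replaced by rows computed from the old ones. -/
theorem cost_upd {A A' : Matrix κ ι ℂ} {B : Matrix μ κ ℂ} {s t : ℕ} (hA : Cost A s)
    (hB : Cost B t) (h : ∀ k, A' k = A k ∨ ∃ j, A' k = (B * A) j) : Cost A' (s + t) := by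
  classical
  have h1 := (cost_rows (Cost.one (ι := κ)) hB).mul hA
  have h2 : ∀ k, ∃ j, A' k = (fromRows (1 : Matrix κ κ ℂ) B * A) j := fun k => by
    rw [fromRows_mul, Matrix.one_mul]
    rcases h k with h | ⟨j, h⟩
    · exact ⟨.inl k, h⟩
    · exact ⟨.inr j, h⟩
  choose f hf using h2
  have h3 := Cost.submatrix (μ := κ) h1 f (Equiv.refl ι)
  rw [Nat.zero_add, Nat.add_comm] at h3
  convert h3 using 1
  ext k i
  rw [hf k]
  rfl

/-- Selection of rows. -/
def sel [DecidableEq κ] (f : μ → κ) : Matrix μ κ ℂ :=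
  Matrix.of fun k i => if some (f k) = some i then 1 else 0

theorem cost_sel [DecidableEq κ] (f : μ → κ) : Cost (sel f) 0 := Cost.wire (f := fun k => some (f k))

omit [Fintype ι] [Fintype μ] in
theorem sel_mul [DecidableEq κ] (f : μ → κ) (A : Matrix κ ι ℂ) (j : μ) : (sel f * A) j = A (f j) := by
  funext i
  simp [sel, Matrix.mul_apply]

theorem exists_gate (f g : μ → κ) (c : ℂ) : ∃ B : Matrix μ κ ℂ,
    Cost B (Fintype.card μ * 3) ∧ ∀ (A : Matrix κ ι ℂ) (j : μ), (B * A) j = A (f j) + c • A (g j) := by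
  classical
  have h1 : Cost (E * diagonal fun b : Bool => if b then c else 1) 3 := by
    simpa using Cost.E.mul (Cost.diag fun b : Bool => if b then c else 1)
  have h2 := ((h1.tensor_one (J := μ)).submatrix (fun j => (j, false)) (Equiv.refl _)).mul
    (cost_sel fun z : μ × Bool => if z.2 then g z.1 else f z.1)
  refine ⟨_, h2, fun A j => ?_⟩
  funext i
  rw [Matrix.mul_assoc, Matrix.mul_apply, Fintype.sum_prod_type, Finset.sum_eq_single j]
  · simp [sel_mul, add_comm]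
  · intro k _ hk
    simp [Matrix.one_apply, Ne.symm hk]
  · simp

theorem tpow_tensor {α β : Type} (A : Matrix α α ℂ) (B : Matrix β β ℂ) (K : ℕ) :
    Eqv (tpow (tensor A B) K) (tensor (tpow A K) (tpow B K)) := by
  refine ⟨Equiv.arrowProdEquivProdArrow _ _ _, ?_⟩
  ext x y
  simp [Finset.prod_mul_distrib]

end gen

variable {m K : ℕ}

theorem cost_Tu {α β : ℂ} {u : V m} {p : Fin m} (hu : u p = 1) {t : ℕ}
    (h : Cost (tpow (Cs α β) K) t) :
    ∃ s : ℕ, Cost (tpow (Tu α β u) K) s ∧ (s : ℝ) = (2 ^ m) ^ K * (t / 2 ^ K) := by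
  have h1 := ((eqv_Tu α β hu).tpow K).trans (tpow_tensor _ _ K)
  have h2 : tpow (1 : Matrix ({a // a ≠ p} → ZMod 2) _ ℂ) K = 1 := tprod_one
  rw [h2] at h1
  refine ⟨_, (h1.trans (Eqv.tensor_comm _ _)).cost h.tensor_one, ?_⟩
  have h3 := h1.card
  rw [Fintype.card_prod] at h3
  generalize Fintype.card (Fin K → {a // a ≠ p} → ZMod 2) = N at h3 ⊢
  have h4 : ((2 : ℝ) ^ m) ^ K = 2 ^ K * N := by
    simp only [Fintype.card_pi, ZMod.card, Finset.prod_const, Finset.card_univ,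
      Fintype.card_fin] at h3
    exact_mod_cast h3
  rw [h4]
  push_cast
  field_simp

theorem cost_swap {α β : ℂ} {t : ℕ} (h : Cost (tpow (Cs α β) K) t) :
    Cost (tpow (Cs β α) K) t := by
  convert h.submatrix (fun (x : Fin K → ZMod 2) a => x a + 1) (Equiv.refl _) using 1
  ext x y
  have h2 : ∀ a a' : ZMod 2, a + 1 = a' ↔ ¬a = a' := by decide
  simp [Cs, h2]

theorem cost_perm : Cost (tpow (Cs 0 1) K) 0 := by
  refine cost_swap ?_
  have h : Cs 1 0 = 1 := by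
    ext a b
    rw [Cs, Matrix.one_apply]
  rw [h, show tpow (1 : Matrix (ZMod 2) (ZMod 2) ℂ) K = 1 from tprod_one]
  exact Cost.one

/-- The arrays on a wire. -/
abbrev Ar (m K : ℕ) : Type := Fin K → V m

/-- The action of the frames. -/
noncomputable def Ph (K : ℕ) (I : Type) (g : V m → ZMod 4) :
    Matrix (Ar m K) I ℂ →ₗ[ℂ] Matrix (Ar m K) I ℂ where
  toFun A := tpow (P g) K * A
  map_add' := Matrix.mul_add _
  map_smul' c A := Matrix.mul_smul _ c A

theorem Ph_apply (I : Type) (g : V m → ZMod 4) (A : Matrix (Ar m K) I ℂ) :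
    Ph K I g A = tpow (P g) K * A := rfl

theorem Ph_zero (I : Type) (A : Matrix (Ar m K) I ℂ) : Ph K I 0 A = A := by
  rw [Ph_apply, P_zero, show tpow (1 : Matrix (V m) (V m) ℂ) K = 1 from tprod_one, Matrix.one_mul]

theorem Ph_add (I : Type) (g g' : V m → ZMod 4) (A : Matrix (Ar m K) I ℂ) :
    Ph K I (g + g') A = Ph K I g (Ph K I g' A) := by
  rw [Ph_apply, Ph_apply, Ph_apply, P_add, ← Matrix.mul_assoc]
  congr 1
  exact tprod_mul (fun _ => P g) fun _ => P g'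

/-- The state of the wires. -/
def St (W : ℕ) {X I : Type} (x : ℕ → Matrix X I ℂ) : Matrix (Fin W × X) I ℂ :=
  fun p => x p.1 p.2

theorem cost_St {W : ℕ} {X I : Type} [Fintype X] [Fintype I] {x : ℕ → Matrix X I ℂ} {s t : ℕ}
    (hx : Cost (St W x) s) (w : ℕ) {B : Matrix X (Fin W × X) ℂ} (hB : Cost B t)
    {y : Matrix X I ℂ} (hy : ∀ a, y a = (B * St W x) a) :
    Cost (St W (Function.update x w y)) (s + t) := by
  refine cost_upd hx hB fun k => ?_
  by_cases h : (k.1 : ℕ) = w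
  · exact Or.inr ⟨k.2, by rw [← hy, St, h, Function.update_self]⟩
  · exact Or.inl (by rw [St, St, Function.update_of_ne h])

theorem cost_call {W : ℕ} {I : Type} [Fintype I] {x : ℕ → Matrix (Ar m K) I ℂ} {s t : ℕ}
    (hx : Cost (St W x) s) {w : ℕ} (hw : w < W) {g : V m → ZMod 4} (hg : Cost (tpow (P g) K) t) :
    Cost (St W (Function.update x w (Ph K I g (x w)))) (s + t) := by
  refine cost_St hx w (hg.mul (cost_sel fun a => ((⟨w, hw⟩ : Fin W), a))) fun a => ?_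
  rw [Matrix.mul_assoc, Ph_apply]
  exact congrFun (congrArg (fun A : Matrix (Ar m K) I ℂ => (tpow (P g) K * A : Matrix (Ar m K) I ℂ))
    (funext fun b => (sel_mul (fun a => ((⟨w, hw⟩ : Fin W), a)) (St W x) b).symm)) a

theorem frames (u : List Bool) (hu : u.length = m ∧ true ∈ u) (n : Bool) :
    (∃ t : ℕ, Cost (tpow (P (if n then -qa m u else qa m u)) K) t ∧
      (t : ℝ) = (2 ^ m) ^ K * rt Cg K) ∧ Cost (tpow (P (qa m u + qa m u)) K) 0 := by
  obtain ⟨p, hp⟩ : ∃ p : Fin m, uv m u p = 1 := by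
    obtain ⟨i, hi, h⟩ := List.getElem_of_mem hu.2
    refine ⟨⟨i, hu.1 ▸ hi⟩, ?_⟩
    simp [uv, List.getD_eq_getElem?_getD, List.getElem?_eq_getElem hi, h]
  have e : ∀ s : ZMod 4, (fun ξ => s * qa m u ξ) = fun ξ => if uv m u ⬝ᵥ ξ = 0 then 0 else s :=
    fun s => funext fun ξ => by simp [qa, dotL_eq]
  have hr : rt Cg K = cmin (tpow Cg K) / 2 ^ K := by simp [rt]
  refine ⟨?_, ?_⟩
  · cases n
    · have h1 : qa m u = fun ξ => 1 * qa m u ξ := by simp
      rw [if_neg Bool.false_ne_true, h1, e, P_rank, i4_one, hr]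
      exact cost_Tu hp (cmin_spec _)
    · have h1 : -qa m u = fun ξ => -1 * qa m u ξ := by
        funext ξ
        simp
      rw [if_pos rfl, h1, e, P_rank, i4_neg, hr, sub_neg_eq_add, ← sub_eq_add_neg]
      exact cost_Tu hp (cost_swap (cmin_spec _))
  · have h1 : qa m u + qa m u = fun ξ => (1 + 1) * qa m u ξ := by
      funext ξ
      simp [add_mul]
    rw [h1, e, P_rank, i4_two, show (1 + -1 : ℂ) / 2 = 0 by norm_num,
      show (1 - -1 : ℂ) / 2 = 1 by norm_num]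
    obtain ⟨s, hs, h0⟩ := cost_Tu hp (cost_perm (K := K))
    have h2 : s = 0 := by simpa using h0
    exact h2 ▸ hs

theorem cost_step {W : ℕ} {I : Type} [Fintype I] {x : ℕ → Matrix (Ar m K) I ℂ} {s : ℕ}
    (hx : Cost (St W x) s) (c : CI) (h1 : c.2.1 < W ∧ (c.1 = 0 → c.2.2.1 < W ∧ c.2.2.1 ≠ c.2.1))
    (h2 : c.1 ≠ 0 → c.2.2.2.2.2.length = m ∧ true ∈ c.2.2.2.2.2) :
    ∃ t : ℕ, Cost (St W (crun m (Ph K I) x c)) (s + t) ∧
      (t : ℝ) ≤ (2 ^ m) ^ K * ((if c.1 = 1 then rt Cg K else 0) + 3) := by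
  have h0 := rt_nonneg Cg K
  unfold crun
  split_ifs with c0 c1 c1 c2
  · omega
  · obtain ⟨B, hB, hB'⟩ := exists_gate (ι := I) (fun a : Ar m K => ((⟨_, h1.1⟩ : Fin W), a))
      (fun a => (⟨_, (h1.2 c0).1⟩, a)) (csc c.2.2.2.1 c.2.2.2.2.1)
    refine ⟨_, cost_St hx _ hB fun a => by rw [hB']; rfl, ?_⟩
    simp
  · obtain ⟨t, ht, he⟩ := (frames (K := K) _ (h2 c0) true).1
    exact ⟨t, cost_call hx h1.1 ht, by rw [he]; gcongr; linarith⟩
  · obtain ⟨t, ht, he⟩ := (frames (K := K) _ (h2 c0) false).1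
    exact ⟨t, cost_call hx h1.1 ht, by rw [he]; gcongr; linarith⟩
  · exact ⟨0, cost_call hx h1.1 (frames (K := K) _ (h2 c0) true).2,
      by rw [Nat.cast_zero]; positivity⟩

theorem cost_run {W : ℕ} {I : Type} [Fintype I] (prog : List CI)
    (h1 : ∀ c ∈ prog, c.2.1 < W ∧ (c.1 = 0 → c.2.2.1 < W ∧ c.2.2.1 ≠ c.2.1))
    (h2 : ∀ c ∈ prog, c.1 ≠ 0 → c.2.2.2.2.2.length = m ∧ true ∈ c.2.2.2.2.2) :
    ∀ (x : ℕ → Matrix (Ar m K) I ℂ) (s : ℕ), Cost (St W x) s →
      ∃ t : ℕ, Cost (St W (prog.foldl (crun m (Ph K I)) x)) (s + t) ∧ (t : ℝ) ≤ (2 ^ m) ^ K *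
        (prog.countP (fun c => decide (c.1 = 1)) * rt Cg K + 3 * prog.length) := by
  induction prog with
  | nil => exact fun x s hx => ⟨0, hx, by simp⟩
  | cons c l ih =>
    intro x s hx
    obtain ⟨t, ht, hb⟩ := cost_step hx c (h1 c List.mem_cons_self) (h2 c List.mem_cons_self)
    obtain ⟨t', ht', hb'⟩ := ih (fun c hc => h1 c (List.mem_cons_of_mem _ hc))
      (fun c hc => h2 c (List.mem_cons_of_mem _ hc)) _ _ ht
    refine ⟨t + t', by rw [← Nat.add_assoc]; exact ht', ?_⟩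
    rw [List.countP_cons, List.length_cons]
    push_cast
    refine (add_le_add hb hb').trans (le_of_eq ?_)
    by_cases h : c.1 = 1 <;> simp [h] <;> ring

/-- One step of the recursion. -/
theorem rt_rec {r : ℕ} {prog : List CI} (h : CNet r m prog) (K : ℕ) :
    rt Cg (r + m * K) ≤ (prog.countP (fun c => decide (c.1 = 1)) : ℝ) / 2 ^ r * rt Cg K +
      (3 * prog.length / 2 ^ r + rt Cg r) := by
  classical
  let x : ℕ → Matrix (Ar m K) (Fin (2 ^ r) × Ar m K) ℂ :=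
    fun w a i => if w = i.1 ∧ a = i.2 then 1 else 0
  have hx : St (2 ^ r) x = 1 := by
    ext ⟨w, a⟩ ⟨w', a'⟩
    simp [St, x, Matrix.one_apply, Fin.ext_iff]
  obtain ⟨t, ht, hb⟩ := cost_run (K := K) prog h.wire h.lab x 0 (hx ▸ Cost.one)
  have hf : St (2 ^ r) (prog.foldl (crun m (Ph K _)) x) =
      tensor (1 : Matrix (Fin (2 ^ r)) _ ℂ) (tpow (tpow Cg m) K) := by
    ext ⟨w, a⟩ ⟨w', a'⟩
    rw [St, h.sem _ _ (Ph_zero _) (Ph_add _) x w w.2]
    rw [Ph_apply, P_full, Matrix.mul_apply, tensor_apply, Matrix.one_apply]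
    by_cases hw : w = w' <;> simp [x, hw, Fin.val_inj]
  rw [hf, Nat.zero_add] at ht
  have e1 : Eqv (tensor (1 : Matrix (Fin r → ZMod 2) _ ℂ) (tpow Cg (m * K)))
      (tensor (1 : Matrix (Fin (2 ^ r)) _ ℂ) (tpow (tpow Cg m) K)) :=
    (eqv_one (by simp)).tensor (tpow_mul Cg m K).symm
  have h1 : tensor (tpow Cg r) (tpow Cg (m * K)) =
      tensor (tpow Cg r) 1 * tensor 1 (tpow Cg (m * K)) := by
    rw [← R2.H715.tensor_mul, Matrix.mul_one, Matrix.one_mul]
  have h2 := ((Eqv.tensor_comm _ _).cost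
    ((cmin_spec (tpow Cg r)).tensor_one (J := Fin (m * K) → ZMod 2))).mul (e1.cost ht)
  rw [← h1] at h2
  refine rt_le ((tpow_add Cg r (m * K)).cost h2) ?_
  have h3 : (cmin (tpow Cg r) : ℝ) = 2 ^ r * rt Cg r := by
    rw [rt, ZMod.card]
    push_cast
    field_simp
  simp only [Fintype.card_pi, ZMod.card, Finset.prod_const, Finset.card_univ, Fintype.card_fin]
  push_cast
  rw [h3, pow_add, pow_mul]
  refine (add_le_add le_rfl hb).trans (le_of_eq ?_)
  field_simp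
  ring

end Vale.Agent.P344X18
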